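import Vale.Agent.P116.AD.Spec
import Vale.Agent.P116.KB.OscAPI

/-!
# P116, block [7]: end values (helper984)

`rowEnd1` = ROW 7-END1 of `AD/Spec`. `EI_eq` = the closed end interval of `KB/HDef` is
`Icc (aE K u z) (bE K u z)`; `oscC_eq_sub` = the oscillation at a component is `bE - aE`.
-/

open Set Filter Topology Metric

namespace Vale.Agent.P116.AD.H984

open H906
open PBC Slow
open KB (BdK EI oscC oscS)

variable {K : Set ℂ} {u : ℂ → ℝ} {z : ℂ}

/-- the values on the node -/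
def vS (K : Set ℂ) (u : ℂ → ℝ) (z : ℂ) (n : ℕ) : Set ℝ := u '' (nd K n z \ K)

lemma vS_nonempty (hK : IsCompact K) (hz : z ∈ K) (n : ℕ) : (vS K u z n).Nonempty := by
  obtain ⟨y, hy, hyK⟩ := KF.exists_mem_nd_notMem hK hz n
  exact ⟨u y, y, ⟨hy, hyK⟩, rfl⟩

lemma vS_anti {m n : ℕ} (h : m ≤ n) : vS K u z n ⊆ vS K u z m :=
  image_mono (sdiff_subset_sdiff_left (nd_anti h))

lemma vS_above (hB : BdK K u) (n : ℕ) : BddAbove (vS K u z n) := (hB.nd n z).above

lemma vS_below (hB : BdK K u) (n : ℕ) : BddBelow (vS K u z n) := (hB.nd n z).below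

lemma inf_mono (hK : IsCompact K) (hB : BdK K u) (hz : z ∈ K) {m n : ℕ} (h : m ≤ n) :
    sInf (vS K u z m) ≤ sInf (vS K u z n) :=
  csInf_le_csInf (vS_below hB m) (vS_nonempty hK hz n) (vS_anti h)

lemma sup_anti (hK : IsCompact K) (hB : BdK K u) (hz : z ∈ K) {m n : ℕ} (h : m ≤ n) :
    sSup (vS K u z n) ≤ sSup (vS K u z m) :=
  csSup_le_csSup (vS_above hB m) (vS_nonempty hK hz n) (vS_anti h)

lemma inf_le_sup (hK : IsCompact K) (hB : BdK K u) (hz : z ∈ K) (m n : ℕ) :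
    sInf (vS K u z m) ≤ sSup (vS K u z n) := by
  have h1 := inf_mono (u := u) hK hB hz (le_max_left m n)
  have h2 := sup_anti (u := u) hK hB hz (le_max_right m n)
  have h3 : sInf (vS K u z (max m n)) ≤ sSup (vS K u z (max m n)) :=
    csInf_le_csSup (vS_nonempty hK hz _) (vS_below hB _) (vS_above hB _)
  exact h1.trans (h3.trans h2)

lemma bdd_inf (hK : IsCompact K) (hB : BdK K u) (hz : z ∈ K) :
    BddAbove (range fun n => sInf (vS K u z n)) := by
  refine ⟨sSup (vS K u z 0), ?_⟩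
  rintro _ ⟨n, rfl⟩
  exact inf_le_sup hK hB hz n 0

lemma bdd_sup (hK : IsCompact K) (hB : BdK K u) (hz : z ∈ K) :
    BddBelow (range fun n => sSup (vS K u z n)) := by
  refine ⟨sInf (vS K u z 0), ?_⟩
  rintro _ ⟨n, rfl⟩
  exact inf_le_sup hK hB hz 0 n

lemma inf_le_aE (hK : IsCompact K) (hB : BdK K u) (hz : z ∈ K) (n : ℕ) :
    sInf (vS K u z n) ≤ aE K u z := le_ciSup (bdd_inf hK hB hz) n

lemma bE_le_sup (hK : IsCompact K) (hB : BdK K u) (hz : z ∈ K) (n : ℕ) :
    bE K u z ≤ sSup (vS K u z n) := ciInf_le (bdd_sup hK hB hz) n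

lemma aE_le_bE (hK : IsCompact K) (hB : BdK K u) (hz : z ∈ K) : aE K u z ≤ bE K u z :=
  ciSup_le fun m => le_ciInf fun n => inf_le_sup hK hB hz m n

lemma exists_inf_gt {t : ℝ} (h : t < aE K u z) : ∃ n, t < sInf (vS K u z n) :=
  exists_lt_of_lt_ciSup h

lemma exists_sup_lt {t : ℝ} (h : bE K u z < t) : ∃ n, sSup (vS K u z n) < t :=
  exists_lt_of_ciInf_lt h

lemma inf_tendsto (hK : IsCompact K) (hB : BdK K u) (hz : z ∈ K) :
    Tendsto (fun n => sInf (vS K u z n)) atTop (𝓝 (aE K u z)) :=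
  tendsto_atTop_ciSup (fun _ _ h => inf_mono hK hB hz h) (bdd_inf hK hB hz)

lemma sup_tendsto (hK : IsCompact K) (hB : BdK K u) (hz : z ∈ K) :
    Tendsto (fun n => sSup (vS K u z n)) atTop (𝓝 (bE K u z)) :=
  tendsto_atTop_ciInf (fun _ _ h => sup_anti hK hB hz h) (bdd_sup hK hB hz)

/-- the end values are limits of the values over the nodes -/
lemma exists_level (hK : IsCompact K) (hB : BdK K u) (hz : z ∈ K) {ε : ℝ} (hε : 0 < ε) :
    ∃ m, ∀ n ≥ m, aE K u z - ε ≤ sInf (vS K u z n) ∧ sSup (vS K u z n) ≤ bE K u z + ε := by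
  obtain ⟨m₁, h1⟩ := exists_inf_gt (show aE K u z - ε < aE K u z by linarith)
  obtain ⟨m₂, h2⟩ := exists_sup_lt (show bE K u z < bE K u z + ε by linarith)
  refine ⟨max m₁ m₂, fun n hn => ⟨?_, ?_⟩⟩
  · exact h1.le.trans (inf_mono hK hB hz ((le_max_left _ _).trans hn))
  · exact (sup_anti hK hB hz ((le_max_right _ _).trans hn)).trans h2.le

lemma nd_of_comp {y : ℂ} (hy : y ∈ K)
    (h : connectedComponentIn K y = connectedComponentIn K z) (hz : z ∈ K) (n : ℕ) :
    nd K n y = nd K n z := by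
  apply nd_eq
  have h1 : y ∈ connectedComponentIn K z := h ▸ mem_connectedComponentIn hy
  exact comp_subset_nd ⟨z, hz, rfl⟩ (mem_connectedComponentIn hz) n h1

lemma aE_congr {y : ℂ} (hy : y ∈ K)
    (h : connectedComponentIn K y = connectedComponentIn K z) (hz : z ∈ K) :
    aE K u y = aE K u z := by
  unfold aE
  simp only [nd_of_comp hy h hz]

lemma bE_congr {y : ℂ} (hy : y ∈ K)
    (h : connectedComponentIn K y = connectedComponentIn K z) (hz : z ∈ K) :
    bE K u y = bE K u z := by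
  unfold bE
  simp only [nd_of_comp hy h hz]

/-- **ROW 7-END1** -/
theorem rowEnd1 : RowEnd1 := by
  intro K u hK _ _ hB z hz
  have hB' : BdK K u := hB
  refine ⟨aE_le_bE hK hB' hz, ?_, fun ε hε => exists_level hK hB' hz hε,
    fun y hy h => ⟨aE_congr hy h hz, bE_congr hy h hz⟩⟩
  intro n y hy hyK
  exact ⟨csInf_le (vS_below hB' n) ⟨y, ⟨hy, hyK⟩, rfl⟩, le_csSup (vS_above hB' n) ⟨y, ⟨hy, hyK⟩, rfl⟩⟩

/-! ### end intervals -/

lemma notMem_UpS_iff (hK : IsCompact K) (hB : BdK K u) (hz : z ∈ K) {t : ℝ} :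
    z ∉ KF.UpS K u t ↔ aE K u z ≤ t := by
  constructor
  · intro h
    by_contra hlt
    push Not at hlt
    obtain ⟨n, hn⟩ := exists_inf_gt hlt
    exact h (Or.inr ⟨hz, n, sInf (vS K u z n), hn, fun y hy hyK =>
      csInf_le (vS_below hB n) ⟨y, ⟨hy, hyK⟩, rfl⟩⟩)
  · rintro h (h1 | ⟨-, n, t', ht', hn⟩)
    · exact h1.1 hz
    · have h2 : t' ≤ sInf (vS K u z n) := by
        refine le_csInf (vS_nonempty hK hz n) ?_
        rintro _ ⟨y, ⟨hy, hyK⟩, rfl⟩
        exact hn y hy hyK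
      have h3 := inf_le_aE (u := u) hK hB hz n
      have h4 : t < t' := ht'
      linarith

lemma notMem_UpS_neg_iff (hK : IsCompact K) (hB : BdK K u) (hz : z ∈ K) {t : ℝ} :
    z ∉ KF.UpS K (fun z => - u z) (-t) ↔ t ≤ bE K u z := by
  constructor
  · intro h
    by_contra hlt
    push Not at hlt
    obtain ⟨n, hn⟩ := exists_sup_lt hlt
    exact h (Or.inr ⟨hz, n, - sSup (vS K u z n), neg_lt_neg hn, fun y hy hyK =>
      neg_le_neg (le_csSup (vS_above hB n) ⟨y, ⟨hy, hyK⟩, rfl⟩)⟩)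
  · rintro h (h1 | ⟨-, n, t', ht', hn⟩)
    · exact h1.1 hz
    · have h2 : sSup (vS K u z n) ≤ - t' := by
        refine csSup_le (vS_nonempty hK hz n) ?_
        rintro _ ⟨y, ⟨hy, hyK⟩, rfl⟩
        have h5 := hn y hy hyK
        have h6 : t' ≤ - u y := h5
        linarith
      have h3 := bE_le_sup (u := u) hK hB hz n
      have h4 : -t < t' := ht'
      linarith

/-- **(end2)** the closed end interval -/
theorem EI_eq (hK : IsCompact K) (hB : BdK K u) (hz : z ∈ K) :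
    EI K u z = Icc (aE K u z) (bE K u z) := by
  ext t
  exact and_congr (notMem_UpS_iff hK hB hz) (notMem_UpS_neg_iff hK hB hz)

/-- **(end2)** the oscillation at a component -/
theorem oscC_eq_sub (hK : IsCompact K) (hB : BdK K u) (hz : z ∈ K) :
    oscC K u (connectedComponentIn K z) = bE K u z - aE K u z :=
  tendsto_nhds_unique (KB.tendsto_oscC_nd hB hz) ((sup_tendsto hK hB hz).sub (inf_tendsto hK hB hz))

end Vale.Agent.P116.AD.H984
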